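import Vale.Agent.P188.H796.Onto

/-!
P151, part (B), step W5a: a finitely generated group of WEAK polynomial growth (polynomial bound for
infinitely many radii) has virtually abelian image in every finite-dimensional isometric
representation. Adapted from P188/H796/Words, Unitary, Fd.
-/

universe u v

open Filter Topology Pointwise

namespace Vale.Agent.P151.H964

open Vale.Agent.P188.H796

/-- Weak polynomial growth of a group. -/
def WGr (Q : Type u) [Group Q] (D : ℕ) : Prop :=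
  ∀ F : Set Q, F.Finite → ∃ᶠ n in atTop, (F ^ n).ncard ≤ n ^ D

theorem WGr.of_injective {G : Type u} {K : Type v} [Group G] [Group K] {D : ℕ} (h : WGr G D)
    (f : K →* G) (hf : Function.Injective f) : WGr K D := by
  intro F hF
  refine (h (f '' F) (hF.image f)).mono fun n hn => ?_
  rw [← Set.ncard_image_of_injective (F ^ n) hf, Set.image_pow]
  exact hn

theorem WGr.subgroup {G : Type u} [Group G] {D : ℕ} (h : WGr G D) (K : Subgroup G) :
    WGr K D := h.of_injective K.subtype K.subtype_injective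

theorem no_seq' {G : Type u} [Group G] {V : Type v} [NormedAddCommGroup V] [InnerProductSpace ℂ V]
    {ρ : G →* (V →L[ℂ] V)} {D : ℕ} (hG : WGr G D) (hρ : IsoRep ρ) {U : Set G} (hU : U.Finite)
    (h1 : (1 : G) ∈ U) {h : ℕ → G} (hL : ∀ k, h k ∈ U ^ 4 ^ k)
    (hpos : ∀ k, 0 < dev ρ (h k)) (hsmall : ∀ k, 16 * (2 * 4 ^ D : ℕ) * dev ρ (h k) ≤ 1)
    (hratio : ∀ k, 8 * (2 * 4 ^ D : ℕ) * dev ρ (h (k + 1)) ≤ dev ρ (h k)) : False := by
  obtain ⟨M, hM⟩ : ∃ M, M = 2 * 4 ^ D := ⟨_, rfl⟩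
  rw [← hM] at hsmall hratio
  have hM0 : 0 < M := by rw [hM]; positivity
  obtain ⟨L, hL0⟩ : ∃ L, L = (4 * M) ^ D := ⟨_, rfl⟩
  obtain ⟨n, hn, hn2⟩ := (frequently_atTop.1 (hG U hU)) (M * 4 ^ L)
  obtain ⟨l, hl⟩ : ∃ l, l = Nat.log 4 (n / M) := ⟨_, rfl⟩
  have a1 : 4 ^ L ≤ n / M := by
    rw [Nat.le_div_iff_mul_le hM0, mul_comm]
    exact hn
  have a2 : n / M ≠ 0 := by
    have : 0 < 4 ^ L := by positivity
    omega
  have a3 : L ≤ l := by
    rw [hl]
    exact Nat.le_log_of_pow_le (by norm_num) a1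
  have a4 : 4 ^ l ≤ n / M := by
    rw [hl]
    exact Nat.pow_log_le_self 4 a2
  have a5 : n / M < 4 ^ (l + 1) := by
    rw [hl]
    exact Nat.lt_pow_succ_log_self (by norm_num) _
  have a6 : M * 4 ^ l ≤ n := (Nat.mul_le_mul_left _ a4).trans (Nat.mul_div_le n M)
  have a7 : n < M * 4 ^ (l + 1) := by
    rw [Nat.div_lt_iff_lt_mul hM0] at a5
    rw [mul_comm]
    exact a5
  have h2 : M ^ l ≤ (U ^ (M * 4 ^ l)).ncard := by
    rw [← words_card hρ hM0 hpos hsmall hratio l 0, ← Set.ncard_coe_finset]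
    refine Set.ncard_le_ncard (fun x hx => ?_) (finite_pow hU _)
    obtain ⟨n, hn, hx⟩ := words_mem hL h1 l 0 x hx
    refine Set.pow_subset_pow_right h1 ?_ hx
    rw [zero_add] at hn
    omega
  have h3 : (U ^ (M * 4 ^ l)).ncard ≤ (U ^ n).ncard :=
    Set.ncard_le_ncard (Set.pow_subset_pow_right h1 a6) (finite_pow hU _)
  have h4 : n ^ D ≤ (4 * M * 4 ^ l) ^ D := by
    refine Nat.pow_le_pow_left ?_ D
    rw [pow_succ] at a7
    calc n ≤ M * (4 ^ l * 4) := a7.le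
      _ = 4 * M * 4 ^ l := by ring
  have h5 : M ^ l = 2 ^ l * (4 ^ D) ^ l := by rw [hM, mul_pow]
  have h6 : (4 * M * 4 ^ l) ^ D = (4 * M) ^ D * (4 ^ D) ^ l := by
    rw [mul_pow, ← pow_mul, ← pow_mul, mul_comm l D]
  have h7 : 2 ^ l * (4 ^ D) ^ l ≤ L * (4 ^ D) ^ l := by
    rw [← h5, hL0, ← h6]
    exact h2.trans (h3.trans (hn2.trans h4))
  have h8 : 2 ^ l ≤ L := Nat.le_of_mul_le_mul_right h7 (by positivity)
  have h9 : 2 ^ L ≤ 2 ^ l := Nat.pow_le_pow_right (by norm_num) a3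
  have h10 : L < 2 ^ L := Nat.lt_two_pow_self
  omega

/-- the case where the central elements of the group generated near the identity are scalars -/
theorem comm_of_scalar' {G : Type u} [Group G] {D : ℕ} (hG : WGr G D)
    {V : Type v} [NormedAddCommGroup V] [InnerProductSpace ℂ V] [FiniteDimensional ℂ V]
    {ρ : G →* (V →L[ℂ] V)} (hρ : IsoRep ρ) {S : Set G} (hS : S.Finite) {K : Subgroup G}
    (hSK : Subgroup.closure S = K) (hSd : ∀ s ∈ S, 16 * (2 * 4 ^ D : ℕ) * dev ρ s < 1)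
    (hC : ∀ z ∈ K, (∀ y ∈ K, ρ z * ρ y = ρ y * ρ z) → ∃ c : ℂ, ρ z = c • 1) :
    ∀ x ∈ K, ∀ y ∈ K, ρ x * ρ y = ρ y * ρ x := by
  classical
  by_contra hcon
  push Not at hcon
  obtain ⟨x, hx, y, hy, hxy⟩ := hcon
  obtain ⟨M, hM⟩ : ∃ M : ℝ, M = (2 * 4 ^ D : ℕ) := ⟨_, rfl⟩
  have hM1 : 1 ≤ M := by
    rw [hM]
    have : 1 ≤ 2 * 4 ^ D := by
      have : 0 < 4 ^ D := by positivity
      omega
    exact_mod_cast this
  rw [← hM] at hSd
  have hSK' : ∀ s ∈ S, s ∈ K := fun s hs => hSK ▸ Subgroup.subset_closure hs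
  have hd1 : ∀ s ∈ S, dev ρ s < 1 := fun s hs => by
    have h1 := hSd s hs
    have h2 := dev_nonneg (ρ := ρ) s
    nlinarith
  -- a noncentral generator
  obtain ⟨s₀, hs₀, hne₀⟩ : ∃ s ∈ S, ρ x * ρ s ≠ ρ s * ρ x :=
    noncentral_gen (hSK ▸ hy) hxy
  let X := {h : G // h ∈ K ∧ (∃ y ∈ K, ρ h * ρ y ≠ ρ y * ρ h) ∧ 16 * M * dev ρ h ≤ 1}
  have hnext : ∀ h : X, ∃ h' : X, ∃ s ∈ S, (h' : G) = h * s * (h : G)⁻¹ * s⁻¹ := by
    rintro ⟨h, hh, ⟨y, hy, hne⟩, hd⟩
    obtain ⟨s, hs, hns⟩ := noncentral_gen (hSK ▸ hy) hne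
    have h1 := dev_comm_le hρ h s
    have h2 := hSd s hs
    have h3 := dev_nonneg (ρ := ρ) h
    have h4 := dev_nonneg (ρ := ρ) s
    refine ⟨⟨h * s * h⁻¹ * s⁻¹, K.mul_mem (K.mul_mem (K.mul_mem hh (hSK' s hs)) (K.inv_mem hh))
      (K.inv_mem (hSK' s hs)), comm_step hρ hC (hSK' s hs) hh (hd1 s hs) hns, ?_⟩, s, hs, rfl⟩
    have h5 : 2 * dev ρ h * dev ρ s ≤ dev ρ h := by
      have : 2 * dev ρ s ≤ 1 := by nlinarith
      nlinarith
    have h6 : dev ρ (h * s * h⁻¹ * s⁻¹) ≤ dev ρ h := h1.trans h5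
    refine le_trans ?_ hd
    exact mul_le_mul_of_nonneg_left h6 (by linarith)
  choose nx hnx using hnext
  have hx₀ : 16 * M * dev ρ s₀ ≤ 1 := (hSd s₀ hs₀).le
  let x₀ : X := ⟨s₀, hSK' s₀ hs₀, ⟨x, hx, fun h => hne₀ h.symm⟩, hx₀⟩
  let h : ℕ → G := fun k => (nx^[k] x₀ : X)
  have hsucc : ∀ k, ∃ s ∈ S, h (k + 1) = h k * s * (h k)⁻¹ * s⁻¹ := by
    intro k
    have := hnx (nx^[k] x₀)
    show ∃ s ∈ S, ((nx^[k + 1] x₀ : X) : G) = _
    rw [Function.iterate_succ_apply']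
    exact this
  let U : Set G := insert 1 (S ∪ S⁻¹)
  have hU : U.Finite := (hS.union hS.inv).insert 1
  have h1U : (1 : G) ∈ U := Set.mem_insert _ _
  have hUinv : U⁻¹ = U := by
    ext g
    simp only [U, Set.mem_inv, Set.mem_insert_iff, Set.mem_union, inv_eq_one, inv_inv]
    tauto
  have hL : ∀ k, h k ∈ U ^ 4 ^ k := by
    intro k
    induction k with
    | zero =>
      rw [pow_zero, pow_one]
      exact Set.mem_insert_of_mem _ (Or.inl hs₀)
    | succ k ih =>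
      obtain ⟨s, hs, e⟩ := hsucc k
      rw [e]
      have a1 : (h k)⁻¹ ∈ U ^ 4 ^ k := by
        have : (h k)⁻¹ ∈ (U ^ 4 ^ k)⁻¹ := Set.inv_mem_inv.2 ih
        rwa [← inv_pow, hUinv] at this
      have a2 : s ∈ U ^ 1 := by rw [pow_one]; exact Set.mem_insert_of_mem _ (Or.inl hs)
      have a3 : s⁻¹ ∈ U ^ 1 := by
        rw [pow_one]; exact Set.mem_insert_of_mem _ (Or.inr (Set.inv_mem_inv.2 hs))
      have a4 : h k * s * (h k)⁻¹ * s⁻¹ ∈ U ^ (4 ^ k + 1 + 4 ^ k + 1) := by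
        rw [pow_add, pow_add, pow_add]
        exact Set.mul_mem_mul (Set.mul_mem_mul (Set.mul_mem_mul ih a2) a1) a3
      refine Set.pow_subset_pow_right h1U ?_ a4
      have : 0 < 4 ^ k := by positivity
      rw [pow_succ]
      omega
  refine no_seq' hG hρ hU h1U hL (fun k => ?_) (fun k => ?_) (fun k => ?_)
  · by_contra hle
    have h1 := eq_one_of_dev (not_lt.1 hle)
    obtain ⟨y, _, hne⟩ := (nx^[k] x₀).2.2.1
    refine hne ?_
    have h2 : ρ ((nx^[k] x₀ : X) : G) = 1 := h1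
    rw [h2, one_mul, mul_one]
  · rw [← hM]
    exact (nx^[k] x₀).2.2.2
  · rw [← hM]
    obtain ⟨s, hs, e⟩ := hsucc k
    rw [e]
    have h1 := dev_comm_le hρ (h k) s
    have h2 := hSd s hs
    have h3 := dev_nonneg (ρ := ρ) (h k)
    calc 8 * M * dev ρ (h k * s * (h k)⁻¹ * s⁻¹) ≤ 8 * M * (2 * dev ρ (h k) * dev ρ s) :=
          mul_le_mul_of_nonneg_left h1 (by linarith)
      _ = (16 * M * dev ρ s) * dev ρ (h k) := by ring
      _ ≤ 1 * dev ρ (h k) := mul_le_mul_of_nonneg_right h2.le h3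
      _ = dev ρ (h k) := one_mul _

/-- A finitely generated group of polynomial growth has virtually abelian image in every
finite-dimensional isometric representation. -/
theorem virtAbelian' (D : ℕ) : ∀ (n : ℕ) (G : Type u) [Group G] [Group.FG G], WGr G D →
    ∀ (V : Type v) [NormedAddCommGroup V] [InnerProductSpace ℂ V] [FiniteDimensional ℂ V],
      Module.finrank ℂ V = n → ∀ ρ : G →* (V →L[ℂ] V), IsoRep ρ →
      ∃ N : Subgroup G, N.FiniteIndex ∧ ∀ x ∈ N, ∀ y ∈ N, ρ x * ρ y = ρ y * ρ x := by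
  intro n
  induction n using Nat.strong_induction_on with
  | _ n ih =>
  intro G _ _ hG V _ _ _ hn ρ hρ
  obtain ⟨ε, hε⟩ : ∃ ε : ℝ, ε = 1 / (16 * (2 * 4 ^ D : ℕ)) := ⟨_, rfl⟩
  have hM1 : (0 : ℝ) < (2 * 4 ^ D : ℕ) := by
    have : 0 < 2 * 4 ^ D := by positivity
    exact_mod_cast this
  have hε0 : 0 < ε := by rw [hε]; positivity
  obtain ⟨K, hK⟩ : ∃ K, K = Subgroup.closure {g | dev ρ g < ε} := ⟨_, rfl⟩
  have hKi : K.FiniteIndex := hK ▸ finiteIndex_near hρ hε0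
  have hKfg : Group.FG K := Subgroup.fg_of_index_ne_zero K
  have hKfg' : (Subgroup.closure {g | dev ρ g < ε}).FG := by
    rw [← hK]
    exact (Group.fg_iff_subgroup_fg K).1 hKfg
  obtain ⟨S, hSf, hST, hSK⟩ := exists_finite_closure hKfg'
  rw [← hK] at hSK
  have hSd : ∀ s ∈ S, 16 * (2 * 4 ^ D : ℕ) * dev ρ s < 1 := fun s hs => by
    have h1 : dev ρ s < ε := hST hs
    rw [hε, lt_div_iff₀ (by positivity)] at h1
    linarith
  by_cases hC : ∀ z ∈ K, (∀ y ∈ K, ρ z * ρ y = ρ y * ρ z) → ∃ c : ℂ, ρ z = c • 1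
  · exact ⟨K, hKi, comm_of_scalar' hG hρ hSf hSK hSd hC⟩
  · push Not at hC
    obtain ⟨z, hz, hzc, hzs⟩ := hC
    have hV : Nontrivial V := by
      by_contra hV
      rw [not_nontrivial_iff_subsingleton] at hV
      exact hzs 0 (by ext v; exact Subsingleton.elim _ _)
    obtain ⟨μ, hμ⟩ := Module.End.exists_eigenvalue ((ρ z : V →L[ℂ] V) : Module.End ℂ V)
    obtain ⟨E, hE⟩ : ∃ E, E = Module.End.eigenspace ((ρ z : V →L[ℂ] V) : Module.End ℂ V) μ :=
      ⟨_, rfl⟩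
    have hmem : ∀ v, v ∈ E ↔ ρ z v = μ • v := fun v => by
      rw [hE, Module.End.mem_eigenspace_iff]; rfl
    have hEbot : E ≠ ⊥ := hE ▸ hμ
    have hEtop : E ≠ ⊤ := by
      intro htop
      refine hzs μ ?_
      ext v
      have : v ∈ E := by rw [htop]; trivial
      exact (hmem v).1 this
    have hEi : ∀ y ∈ K, ∀ w ∈ E, ρ y w ∈ E := by
      intro y hy w hw
      rw [hmem] at hw ⊢
      have h1 : (ρ z * ρ y) w = (ρ y * ρ z) w := by rw [hzc y hy]
      have h2 : ρ z (ρ y w) = ρ y (ρ z w) := h1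
      rw [h2, hw, map_smul]
    have hEo := hρ.orth K E hEi
    have hr1 : Module.finrank ℂ E < n := by
      rw [← hn]
      exact Submodule.finrank_lt hEtop
    have hr2 : Module.finrank ℂ Eᗮ < n := by
      rw [← hn]
      refine Submodule.finrank_lt fun htop => hEbot ?_
      rwa [Submodule.orthogonal_eq_top_iff] at htop
    obtain ⟨N₁, hN₁, hc₁⟩ := ih _ hr1 K (hG.subgroup K) E rfl (subRep ρ K E hEi)
      (subRep_isoRep hρ K E hEi)
    obtain ⟨N₂, hN₂, hc₂⟩ := ih _ hr2 K (hG.subgroup K) Eᗮ rfl (subRep ρ K Eᗮ hEo)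
      (subRep_isoRep hρ K Eᗮ hEo)
    refine ⟨(N₁ ⊓ N₂).map K.subtype, ⟨?_⟩, ?_⟩
    · rw [Subgroup.index_map_subtype]
      exact mul_ne_zero (Subgroup.FiniteIndex.index_ne_zero (H := N₁ ⊓ N₂)) hKi.index_ne_zero
    · rintro _ ⟨x, hx, rfl⟩ _ ⟨y, hy, rfl⟩
      ext v
      obtain ⟨a, ha, b, hb, rfl⟩ := E.exists_add_mem_mem_orthogonal v
      have h1 := congrArg (fun A : E →L[ℂ] E => ((A ⟨a, ha⟩ : E) : V)) (hc₁ x hx.1 y hy.1)
      have h2 := congrArg (fun A : Eᗮ →L[ℂ] Eᗮ => ((A ⟨b, hb⟩ : Eᗮ) : V)) (hc₂ x hx.2 y hy.2)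
      have h3 : ρ x (ρ y a) = ρ y (ρ x a) := h1
      have h4 : ρ x (ρ y b) = ρ y (ρ x b) := h2
      show ρ x (ρ y (a + b)) = ρ y (ρ x (a + b))
      rw [map_add, map_add, map_add, map_add, h3, h4]


/-- **W5a**. -/
theorem real_virtAbelian' {D : ℕ} {G : Type u} [Group G] [Group.FG G] (hG : WGr G D)
    {W : Type v} [NormedAddCommGroup W] [InnerProductSpace ℝ W] [FiniteDimensional ℝ W]
    (σ : G →* (W ≃ₗᵢ[ℝ] W)) :
    ∃ N : Subgroup G, N.FiniteIndex ∧ ∀ x ∈ N, ∀ y ∈ N, σ x * σ y = σ y * σ x := by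
  classical
  let bs := stdOrthonormalBasis ℝ W
  let L : G →* (W →ₗ[ℝ] W) :=
    { toFun := fun g => (σ g).toLinearEquiv.toLinearMap
      map_one' := by rw [map_one]; rfl
      map_mul' := fun g h => by rw [map_mul]; rfl }
  let A : G →* Matrix (Fin (Module.finrank ℝ W)) (Fin (Module.finrank ℝ W)) ℝ :=
    ((LinearMap.toMatrixOrthonormal bs : (W →ₗ[ℝ] W) ≃⋆ₐ[ℝ] _) : (W →ₗ[ℝ] W) →* _).comp L
  let B : G →* Matrix (Fin (Module.finrank ℝ W)) (Fin (Module.finrank ℝ W)) ℂ :=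
    (RingHom.mapMatrix (m := Fin (Module.finrank ℝ W)) (algebraMap ℝ ℂ)).toMonoidHom.comp A
  let ρ : G →* (EuclideanSpace ℂ (Fin (Module.finrank ℝ W)) →L[ℂ]
      EuclideanSpace ℂ (Fin (Module.finrank ℝ W))) :=
    { toFun := fun g => Matrix.toEuclideanCLM (𝕜 := ℂ) (B g)
      map_one' := by rw [map_one, map_one]
      map_mul' := fun g h => by rw [map_mul, map_mul] }
  have hA : ∀ g, A g = LinearMap.toMatrixOrthonormal bs (σ g).toLinearEquiv.toLinearMap :=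
    fun g => rfl
  have hB : ∀ g, B g = (A g).map (algebraMap ℝ ℂ) := fun g => rfl
  have hρd : ∀ g, ρ g = Matrix.toEuclideanCLM (𝕜 := ℂ) (B g) := fun g => rfl
  have h1 : ∀ g, star (A g) * A g = 1 := by
    intro g
    rw [hA, ← map_star, ← map_mul]
    have : star (σ g).toLinearEquiv.toLinearMap * (σ g).toLinearEquiv.toLinearMap = 1 := by
      refine LinearMap.ext fun x => ext_inner_left ℝ fun y => ?_
      show inner ℝ y (LinearMap.adjoint (σ g).toLinearEquiv.toLinearMap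
        ((σ g).toLinearEquiv.toLinearMap x)) = inner ℝ y x
      rw [LinearMap.adjoint_inner_right]
      exact (σ g).inner_map_map y x
    rw [this, map_one]
  have h2 : ∀ g, star (B g) * B g = 1 := by
    intro g
    have h3 : star (B g) = (star (A g)).map (algebraMap ℝ ℂ) := by
      rw [hB]
      ext i j
      simp [Matrix.star_apply]
    rw [h3, hB, ← Matrix.map_mul, h1]
    simp
  have hρ : IsoRep ρ := by
    intro g
    rw [ContinuousLinearMap.norm_map_iff_adjoint_comp_self]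
    show star (ρ g) * ρ g = 1
    rw [hρd, ← map_star, ← map_mul, h2, map_one]
  obtain ⟨N, hN, hc⟩ := virtAbelian' D _ G hG _ rfl ρ hρ
  refine ⟨N, hN, fun x hx y hy => ?_⟩
  have h3 := hc x hx y hy
  rw [← map_mul, ← map_mul, hρd, hρd] at h3
  have h4 := (Matrix.toEuclideanCLM (𝕜 := ℂ)).injective h3
  rw [hB, hB] at h4
  have h5 : A (x * y) = A (y * x) := by
    ext i j
    have := congrFun (congrFun h4 i) j
    simpa using this
  rw [hA, hA] at h5
  have h6 := (LinearMap.toMatrixOrthonormal bs).injective h5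
  rw [← map_mul, ← map_mul]
  exact LinearIsometryEquiv.ext fun v => LinearMap.congr_fun h6 v


end Vale.Agent.P151.H964
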