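import Vale.Agent.P151.GB.Base
import Vale.Agent.P151.H964.VA

/-!
P151, part (B), step W4: a nonzero harmonic equivariant map to a finite-dimensional space gives a
homomorphism of a finite index subgroup onto `ℤ` killing the stabiliser of the base point.
-/

universe u v w

open Filter Topology Pointwise

namespace Vale.Agent.P151.H964

open Vale.Agent.P151.GB Vale.Agent.P188.H796

/-- A finitely generated infinite group acting faithfully by isometries of a finite-dimensional
space with virtually commutative linear part maps virtually onto `ℤ`. -/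
theorem onto_of_isom {Q : Type u} [Group Q] [Group.FG Q] [Infinite Q] {W : Type v}
    [NormedAddCommGroup W] [InnerProductSpace ℝ W]
    (σ : Q →* (W ≃ₗᵢ[ℝ] W))
    (hva : ∃ N : Subgroup Q, N.FiniteIndex ∧ ∀ x ∈ N, ∀ y ∈ N, σ x * σ y = σ y * σ x)
    (c : Q → W) (hc : ∀ g h, c (g * h) = c g + σ g (c h))
    (hinj : ∀ g, σ g = 1 → c g = 0 → g = 1) :
    ∃ K : Subgroup Q, K.FiniteIndex ∧ ∃ φ : K →* Multiplicative ℤ, Function.Surjective φ := by
  classical
  by_cases hK : σ.ker.FiniteIndex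
  · refine ⟨σ.ker, hK, ?_⟩
    have hKfg : Group.FG σ.ker := Subgroup.fg_of_index_ne_zero _
    have h1 : c 1 = 0 := by
      have := hc 1 1
      rw [mul_one, map_one] at this
      simpa using this
    let f : σ.ker →* Multiplicative W :=
      { toFun := fun k => Multiplicative.ofAdd (c k)
        map_one' := by
          show Multiplicative.ofAdd (c ((1 : σ.ker) : Q)) = 1
          rw [Subgroup.coe_one, h1, ofAdd_zero]
        map_mul' := fun g h => by
          show Multiplicative.ofAdd (c ((g : Q) * h)) =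
            Multiplicative.ofAdd (c g) * Multiplicative.ofAdd (c h)
          have hg : σ (g : Q) = 1 := g.2
          rw [hc, hg, ← ofAdd_add]
          rfl }
    have hfi : Function.Injective f := by
      rw [injective_iff_map_eq_one]
      intro a ha
      have h2 : c (a : Q) = 0 := ha
      exact Subtype.ext (hinj _ a.2 h2)
    refine surj_of_infinite_comm f (fun x y => mul_comm _ _) fun hfin => ?_
    have h3 : Finite σ.ker := Finite.of_injective _ (MonoidHom.ofInjective hfi).injective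
    have h4 : Finite Q := by
      have : Finite (Q ⧸ σ.ker) := Subgroup.finite_quotient_of_finiteIndex
      exact Finite.of_equiv _ (Subgroup.groupEquivQuotientProdSubgroup (s := σ.ker)).symm
    exact not_finite Q
  · obtain ⟨N, hN, hcomm⟩ := hva
    refine ⟨N, hN, ?_⟩
    have hNfg : Group.FG N := Subgroup.fg_of_index_ne_zero _
    refine surj_of_infinite_comm (σ.comp N.subtype) (fun x y => hcomm x x.2 y y.2)
      fun hfin => hK ?_
    have h2 : (σ.comp N.subtype).ker.FiniteIndex := Subgroup.finiteIndex_ker _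
    have h3 : (σ.comp N.subtype).ker = σ.ker.subgroupOf N := rfl
    rw [h3] at h2
    have h4 : (σ.ker ⊓ N).FiniteIndex := by
      refine ⟨?_⟩
      rw [← Subgroup.relIndex_mul_index (inf_le_right : σ.ker ⊓ N ≤ N), Subgroup.inf_relIndex_right]
      exact mul_ne_zero h2.index_ne_zero hN.index_ne_zero
    exact Subgroup.finiteIndex_of_le (inf_le_left : σ.ker ⊓ N ≤ σ.ker)

section TG

variable {Γ : Type u} {V : Type v} [Group Γ] [MulAction Γ V] (T : TG Γ V)

theorem mem_ball_succ {x y : V} {n : ℕ} :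
    y ∈ T.ball x (n + 1) ↔ ∃ z ∈ T.ball x n, y ∈ T.nb z := by
  simp only [TG.ball, Finset.mem_biUnion]

theorem ball_mono {x : V} {m n : ℕ} (h : m ≤ n) : T.ball x m ⊆ T.ball x n := by
  induction n, h using Nat.le_induction with
  | base => exact Finset.Subset.refl _
  | succ n _ ih =>
    intro y hy
    exact (mem_ball_succ T).2 ⟨y, ih hy, T.self_mem y⟩

theorem exists_mem_ball (x : V) : ∃ n, x ∈ T.ball T.o n := by
  induction T.conn x with
  | refl => exact ⟨0, by simp [TG.ball]⟩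
  | tail _ h ih =>
    obtain ⟨n, hn⟩ := ih
    exact ⟨n + 1, (mem_ball_succ T).2 ⟨_, hn, h⟩⟩

theorem smul_ball (g : Γ) {x y : V} {n : ℕ} (h : y ∈ T.ball x n) : g • y ∈ T.ball (g • x) n := by
  induction n generalizing y with
  | zero =>
    have : y = x := by simpa [TG.ball] using h
    rw [this]
    simp [TG.ball]
  | succ n ih =>
    obtain ⟨z, hz, hy⟩ := (mem_ball_succ T).1 h
    exact (mem_ball_succ T).2 ⟨g • z, ih hz, T.smul_mem g _ _ hy⟩

theorem ball_trans {x y z : V} {m n : ℕ} (h : y ∈ T.ball x m) (h' : z ∈ T.ball y n) :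
    z ∈ T.ball x (m + n) := by
  induction n generalizing z with
  | zero =>
    have : z = y := by simpa [TG.ball] using h'
    rw [this]
    exact h
  | succ n ih =>
    obtain ⟨w, hw, hz⟩ := (mem_ball_succ T).1 h'
    exact (mem_ball_succ T).2 ⟨w, ih hw, hz⟩

/-- The elements moving the base point by at most `n`. -/
def B (n : ℕ) : Set Γ := {g | g • T.o ∈ T.ball T.o n}

theorem one_mem_B (n : ℕ) : (1 : Γ) ∈ B T n := by
  show (1 : Γ) • T.o ∈ T.ball T.o n
  rw [one_smul]
  exact ball_mono T (Nat.zero_le n) (by simp [TG.ball])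

theorem mul_mem_B {m n : ℕ} {g h : Γ} (hg : g ∈ B T m) (hh : h ∈ B T n) : g * h ∈ B T (m + n) := by
  show (g * h) • T.o ∈ T.ball T.o (m + n)
  rw [mul_smul]
  exact ball_trans T hg (smul_ball T g hh)

theorem pow_subset_B {m : ℕ} {F : Set Γ} (hF : F ⊆ B T m) (n : ℕ) : F ^ n ⊆ B T (m * n) := by
  induction n with
  | zero =>
    rw [pow_zero, mul_zero]
    rintro _ rfl
    exact one_mem_B T 0
  | succ n ih =>
    rw [pow_succ]
    rintro _ ⟨a, ha, b, hb, rfl⟩
    exact mul_mem_B T (ih ha) (hF hb)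

/-- `B n` is generated by `B 1`. -/
theorem B_le_closure (n : ℕ) : ∀ g ∈ B T n, g ∈ Subgroup.closure (B T 1) := by
  induction n with
  | zero => exact fun g hg => Subgroup.subset_closure (ball_mono T (Nat.zero_le 1) hg)
  | succ n ih =>
    intro g hg
    obtain ⟨y, hy, hgy⟩ := (mem_ball_succ T).1 hg
    obtain ⟨h, rfl⟩ := T.trans y
    have h1 : h⁻¹ * g ∈ B T 1 := by
      show (h⁻¹ * g) • T.o ∈ T.ball T.o 1
      rw [mul_smul]
      have h2 := T.smul_mem h⁻¹ _ _ hgy
      rw [inv_smul_smul] at h2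
      exact (mem_ball_succ T).2 ⟨T.o, by simp [TG.ball], h2⟩
    have h2 := Subgroup.mul_mem _ (ih h hy) (Subgroup.subset_closure h1)
    rwa [mul_inv_cancel_left] at h2

theorem closure_B_one : Subgroup.closure (B T 1) = ⊤ := by
  rw [eq_top_iff]
  intro g _
  obtain ⟨n, hn⟩ := exists_mem_ball T (g • T.o)
  exact B_le_closure T n g hn

/-- The images of the balls in a quotient in which the stabiliser has finite image. -/
theorem image_B_ncard {Q : Type w} [Group Q] (π : Γ →* Q) (hK : (π '' {g | g • T.o = T.o}).Finite)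
    (n : ℕ) : (π '' B T n).Finite ∧
      (π '' B T n).ncard ≤ (T.ball T.o n).card * (π '' {g | g • T.o = T.o}).ncard := by
  classical
  choose r hr using T.trans
  have hsub : π '' B T n ⊆ ⋃ v ∈ T.ball T.o n, (fun q => π (r v) * q) '' (π '' {g | g • T.o = T.o}) := by
    rintro _ ⟨g, hg, rfl⟩
    simp only [Set.mem_iUnion]
    refine ⟨g • T.o, hg, π ((r (g • T.o))⁻¹ * g), ⟨_, ?_, rfl⟩, ?_⟩
    · show ((r (g • T.o))⁻¹ * g) • T.o = T.o
      rw [mul_smul, inv_smul_eq_iff, hr]
    · show π (r (g • T.o)) * π ((r (g • T.o))⁻¹ * g) = π g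
      rw [← map_mul, mul_inv_cancel_left]
  have hfin : (⋃ v ∈ T.ball T.o n, (fun q => π (r v) * q) '' (π '' {g | g • T.o = T.o})).Finite :=
    (T.ball T.o n).finite_toSet.biUnion fun v _ => hK.image _
  refine ⟨hfin.subset hsub, (Set.ncard_le_ncard hsub hfin).trans ?_⟩
  have key : ∀ s : Finset V,
      (⋃ v ∈ s, (fun q => π (r v) * q) '' (π '' {g | g • T.o = T.o})).ncard ≤
        s.card * (π '' {g | g • T.o = T.o}).ncard := by
    intro s
    induction s using Finset.induction_on with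
    | empty => simp
    | insert a s ha ih =>
      rw [Finset.set_biUnion_insert, Finset.card_insert_of_notMem ha, add_mul, one_mul]
      refine (Set.ncard_union_le _ _).trans ?_
      rw [add_comm]
      exact Nat.add_le_add ih (Set.ncard_image_le hK)
  exact key _

theorem fg_of_finite_stab {Q : Type w} [Group Q] (π : Γ →* Q) (hs : Function.Surjective π)
    (hK : (π '' {g | g • T.o = T.o}).Finite) : Group.FG Q := by
  have h1 := (image_B_ncard T π hK 1).1
  rw [Group.fg_iff]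
  refine ⟨π '' B T 1, ?_, h1⟩
  rw [← MonoidHom.map_closure, closure_B_one, ← MonoidHom.range_eq_map,
    MonoidHom.range_eq_top.2 hs]

theorem wgr_of_finite_stab {Q : Type w} [Group Q] (π : Γ →* Q) (hs : Function.Surjective π)
    (hK : (π '' {g | g • T.o = T.o}).Finite) {D : ℕ} (hW : T.WG D) : WGr Q (D + 1) := by
  classical
  intro F hF
  obtain ⟨m, hm⟩ : ∃ m, F ⊆ π '' B T m := by
    have h1 : ∀ q ∈ F, ∃ n, q ∈ π '' B T n := by
      intro q _
      obtain ⟨g, rfl⟩ := hs q
      obtain ⟨n, hn⟩ := exists_mem_ball T (g • T.o)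
      exact ⟨n, g, hn, rfl⟩
    choose! f hf using h1
    obtain ⟨m, hm⟩ := (hF.image f).bddAbove
    refine ⟨m, fun q hq => ?_⟩
    obtain ⟨g, hg, hgq⟩ := hf q hq
    exact ⟨g, ball_mono T (hm ⟨q, hq, rfl⟩) hg, hgq⟩
  obtain ⟨C, hC⟩ : ∃ C, C = (π '' {g | g • T.o = T.o}).ncard := ⟨_, rfl⟩
  rw [frequently_atTop]
  intro n₀
  obtain ⟨M, hM⟩ : ∃ M, M = m + 1 := ⟨_, rfl⟩
  have hM0 : 0 < M := by omega
  have hF2 : F ⊆ π '' B T M := hm.trans (Set.image_mono fun g hg => ball_mono T (by omega) hg)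
  obtain ⟨N, hN, hN2⟩ := (frequently_atTop.1 hW) (M * (n₀ + C * (2 * M) ^ D + 1))
  have hdiv : n₀ + C * (2 * M) ^ D + 1 ≤ N / M := by
    rw [Nat.le_div_iff_mul_le hM0, mul_comm]
    exact hN
  refine ⟨N / M, by omega, ?_⟩
  have h2 : F ^ (N / M) ⊆ π '' B T (M * (N / M)) := by
    have h3 : F ^ (N / M) ⊆ (π '' B T M) ^ (N / M) := Set.pow_subset_pow_left hF2
    rw [← Set.image_pow] at h3
    exact h3.trans (Set.image_mono (pow_subset_B T (le_refl _) _))
  have h3 : M * (N / M) ≤ N := Nat.mul_div_le N M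
  have h4 := (image_B_ncard T π hK (M * (N / M)))
  have h5 : (T.ball T.o (M * (N / M))).card ≤ N ^ D :=
    (Finset.card_le_card (ball_mono T h3)).trans hN2
  have h6 : N ≤ 2 * M * (N / M) := by
    have := Nat.lt_mul_div_succ N hM0
    have h7 : 1 ≤ N / M := by omega
    calc N ≤ M * (N / M + 1) := this.le
      _ ≤ M * (N / M + N / M) := Nat.mul_le_mul_left _ (by omega)
      _ = 2 * M * (N / M) := by ring
  calc (F ^ (N / M)).ncard ≤ (π '' B T (M * (N / M))).ncard := Set.ncard_le_ncard h2 h4.1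
    _ ≤ (T.ball T.o (M * (N / M))).card * C := by rw [hC]; exact h4.2
    _ ≤ N ^ D * C := Nat.mul_le_mul_right _ h5
    _ ≤ (2 * M * (N / M)) ^ D * C := Nat.mul_le_mul_right _ (Nat.pow_le_pow_left h6 D)
    _ = (C * (2 * M) ^ D) * (N / M) ^ D := by rw [mul_pow]; ring
    _ ≤ (N / M) * (N / M) ^ D := Nat.mul_le_mul_right _ (by omega)
    _ = (N / M) ^ (D + 1) := by rw [pow_succ, mul_comm]

end TG

section Main

variable {Γ : Type u} {V : Type v} [Group Γ] [MulAction Γ V] (T : TG Γ V)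
  {W : Type w} [NormedAddCommGroup W] [InnerProductSpace ℝ W]

theorem c_base {σ : Γ →* (W ≃ₗᵢ[ℝ] W)} {c : V → W}
    (hc : ∀ g x, c (g • x) = c (g • T.o) + σ g (c x)) : c T.o = 0 := by
  have := hc 1 T.o
  rw [one_smul, map_one] at this
  simpa using this

/-- The affine isometric action, as endomorphisms. -/
def affE (σ : Γ →* (W ≃ₗᵢ[ℝ] W)) (c : V → W)
    (hc : ∀ g x, c (g • x) = c (g • T.o) + σ g (c x)) : Γ →* Function.End W where
  toFun g := fun w => σ g w + c (g • T.o)
  map_one' := by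
    funext w
    show σ 1 w + c ((1 : Γ) • T.o) = w
    rw [one_smul, c_base T hc, map_one, add_zero]
    rfl
  map_mul' g h := by
    funext w
    show σ (g * h) w + c ((g * h) • T.o) = σ g (σ h w + c (h • T.o)) + c (g • T.o)
    rw [map_mul, mul_smul, hc g (h • T.o), map_add]
    show σ g (σ h w) + _ = _
    abel

/-- The affine isometric action. -/
def aff (σ : Γ →* (W ≃ₗᵢ[ℝ] W)) (c : V → W)
    (hc : ∀ g x, c (g • x) = c (g • T.o) + σ g (c x)) : Γ →* Equiv.Perm W :=
  (affE T σ c hc).toHomPerm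

theorem aff_apply {σ : Γ →* (W ≃ₗᵢ[ℝ] W)} {c : V → W}
    (hc : ∀ g x, c (g • x) = c (g • T.o) + σ g (c x)) (g : Γ) (w : W) :
    aff T σ c hc g w = σ g w + c (g • T.o) := rfl

theorem of_aff_eq_one {σ : Γ →* (W ≃ₗᵢ[ℝ] W)} {c : V → W}
    (hc : ∀ g x, c (g • x) = c (g • T.o) + σ g (c x)) {g : Γ} (h : aff T σ c hc g = 1) :
    σ g = 1 ∧ c (g • T.o) = 0 := by
  have h1 : ∀ w, σ g w + c (g • T.o) = w := fun w => by
    rw [← aff_apply T hc, h]
    rfl
  have h2 : c (g • T.o) = 0 := by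
    have := h1 0
    rwa [map_zero, zero_add] at this
  refine ⟨LinearIsometryEquiv.ext fun w => ?_, h2⟩
  have := h1 w
  rw [h2, add_zero] at this
  exact this

/-- The translation part on the quotient. -/
def aff0 (σ : Γ →* (W ≃ₗᵢ[ℝ] W)) (c : V → W)
    (hc : ∀ g x, c (g • x) = c (g • T.o) + σ g (c x)) (q : Γ ⧸ (aff T σ c hc).ker) : W :=
  QuotientGroup.kerLift (aff T σ c hc) q 0

theorem aff0_mk {σ : Γ →* (W ≃ₗᵢ[ℝ] W)} {c : V → W}
    (hc : ∀ g x, c (g • x) = c (g • T.o) + σ g (c x)) (g : Γ) :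
    aff0 T σ c hc (g : Γ ⧸ (aff T σ c hc).ker) = c (g • T.o) := by
  unfold aff0
  rw [QuotientGroup.kerLift_mk]
  show aff T σ c hc g 0 = _
  rw [aff_apply, map_zero, zero_add]

theorem stab_image_finite [FiniteDimensional ℝ W] {σ : Γ →* (W ≃ₗᵢ[ℝ] W)} {c : V → W}
    (hc : ∀ g x, c (g • x) = c (g • T.o) + σ g (c x))
    (hspan : Submodule.span ℝ (Set.range c) = ⊤) :
    ((QuotientGroup.mk' (aff T σ c hc).ker) '' {g | g • T.o = T.o}).Finite := by
  classical
  have hfg : (Submodule.span ℝ (Set.range c)).FG := by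
    rw [hspan]
    exact Module.finite_def.1 inferInstance
  obtain ⟨t, ht, hts⟩ := Submodule.fg_span_iff_fg_span_finset_subset (Set.range c) |>.1 hfg
  have h1 : ∀ w ∈ t, ∃ x : V, c x = w := fun w hw => ht hw
  have hne : Nonempty V := ⟨T.o⟩
  choose! f hf using h1
  obtain ⟨R, hR⟩ : ∃ R, ∀ w ∈ t, f w ∈ T.ball T.o R := by
    have h2 : ∀ w : W, ∃ n, f w ∈ T.ball T.o n := fun w => exists_mem_ball T _
    choose r hr using h2
    obtain ⟨R, hR⟩ := (t.image r).bddAbove
    exact ⟨R, fun w hw => ball_mono T (hR (Finset.mem_coe.2 (Finset.mem_image_of_mem r hw))) (hr w)⟩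
  obtain ⟨Φ, hΦ⟩ : ∃ Φ : Γ → (t → V), ∀ k w, Φ k w = k • f (w : W) := ⟨_, fun _ _ => rfl⟩
  have hfin : (Φ '' {g | g • T.o = T.o}).Finite := by
    refine (Set.Finite.pi' fun _ : t => (T.ball T.o R).finite_toSet).subset ?_
    rintro _ ⟨g, hg, rfl⟩ w
    rw [hΦ]
    have h3 := smul_ball T g (hR w w.2)
    have hg' : g • T.o = T.o := hg
    rw [hg'] at h3
    exact h3
  have key : ∀ g k : Γ, g • T.o = T.o → k • T.o = T.o → Φ g = Φ k →
      QuotientGroup.mk' (aff T σ c hc).ker g = QuotientGroup.mk' (aff T σ c hc).ker k := by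
    intro g k hg hk hgk
    have h4 : ∀ x : W, σ g x = σ k x := by
      have h5 : (⊤ : Submodule ℝ W) ≤ LinearMap.eqLocus
          (σ g).toLinearEquiv.toLinearMap (σ k).toLinearEquiv.toLinearMap := by
        rw [← hspan, hts, Submodule.span_le]
        intro w hw
        show σ g w = σ k w
        have hw' : w ∈ t := hw
        have h6 := hc g (f w)
        have h7 := hc k (f w)
        rw [hg, c_base T hc, zero_add, hf w hw'] at h6
        rw [hk, c_base T hc, zero_add, hf w hw'] at h7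
        have h8 := congrFun hgk ⟨w, hw'⟩
        rw [hΦ, hΦ] at h8
        rw [← h6, ← h7]
        exact congrArg c h8
      intro x
      exact h5 (Submodule.mem_top (x := x))
    apply QuotientGroup.kerLift_injective (aff T σ c hc)
    show aff T σ c hc g = aff T σ c hc k
    refine Equiv.ext fun w => ?_
    rw [aff_apply, aff_apply, hg, hk, h4]
  let ψ : (t → V) → Γ ⧸ (aff T σ c hc).ker := fun F =>
    if h : ∃ k : Γ, k • T.o = T.o ∧ Φ k = F then QuotientGroup.mk' _ h.choose else 1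
  refine (hfin.image ψ).subset ?_
  rintro _ ⟨g, hg, rfl⟩
  refine ⟨Φ g, ⟨g, hg, rfl⟩, ?_⟩
  have hex : ∃ k : Γ, k • T.o = T.o ∧ Φ k = Φ g := ⟨g, hg, rfl⟩
  show (if h : ∃ k : Γ, k • T.o = T.o ∧ Φ k = Φ g then QuotientGroup.mk' _ h.choose else 1) = _
  rw [dif_pos hex]
  exact key _ _ hex.choose_spec.1 hg hex.choose_spec.2

theorem quot_infinite {σ : Γ →* (W ≃ₗᵢ[ℝ] W)} {c : V → W}
    (hc : ∀ g x, c (g • x) = c (g • T.o) + σ g (c x))
    (hh : ∑ y ∈ T.nb T.o, c y = 0) (hn : ∃ y ∈ T.nb T.o, c y ≠ 0) :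
    Infinite (Γ ⧸ (aff T σ c hc).ker) := by
  classical
  rw [← not_finite_iff_infinite]
  intro hfin
  have hfr : (Set.range c).Finite := by
    refine (Set.finite_range (aff0 T σ c hc)).subset ?_
    rintro _ ⟨x, rfl⟩
    obtain ⟨g, rfl⟩ := T.trans x
    exact ⟨QuotientGroup.mk g, aff0_mk T hc g⟩
  obtain ⟨_, ⟨x, rfl⟩, hx⟩ := Set.exists_max_image (Set.range c) (fun v => ‖v‖ ^ 2) hfr
    ⟨c T.o, T.o, rfl⟩
  obtain ⟨g, rfl⟩ := T.trans x
  obtain ⟨s₀, hs₀, hcs₀⟩ := hn
  have h2 : ∀ s ∈ T.nb T.o, ‖c (g • s)‖ ^ 2 =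
      ‖c (g • T.o)‖ ^ 2 + 2 * inner ℝ (c (g • T.o)) (σ g (c s)) + ‖c s‖ ^ 2 := by
    intro s _
    rw [hc g s, norm_add_sq_real, LinearIsometryEquiv.norm_map]
  have h3 : ∑ s ∈ T.nb T.o, ‖c (g • s)‖ ^ 2 =
      (T.nb T.o).card * ‖c (g • T.o)‖ ^ 2 + ∑ s ∈ T.nb T.o, ‖c s‖ ^ 2 := by
    rw [Finset.sum_congr rfl h2, Finset.sum_add_distrib, Finset.sum_add_distrib,
      ← Finset.mul_sum, ← inner_sum, ← map_sum, hh, map_zero, inner_zero_right, mul_zero,
      add_zero, Finset.sum_const, nsmul_eq_mul]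
  have h4 : ∑ s ∈ T.nb T.o, ‖c (g • s)‖ ^ 2 ≤ (T.nb T.o).card * ‖c (g • T.o)‖ ^ 2 := by
    have := Finset.sum_le_card_nsmul (T.nb T.o) (fun s => ‖c (g • s)‖ ^ 2) (‖c (g • T.o)‖ ^ 2)
      (fun s _ => hx _ ⟨g • s, rfl⟩)
    rwa [nsmul_eq_mul] at this
  have h5 : ‖c s₀‖ ^ 2 ≤ ∑ s ∈ T.nb T.o, ‖c s‖ ^ 2 :=
    Finset.single_le_sum (f := fun s => ‖c s‖ ^ 2) (fun s _ => by positivity) hs₀
  have h6 : ‖c s₀‖ ^ 2 ≤ 0 := by linarith
  have h7 : 0 < ‖c s₀‖ := norm_pos_iff.2 hcs₀
  nlinarith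

/-- The spanning case of `exists_hom`. -/
theorem exists_hom_span [FiniteDimensional ℝ W] {D : ℕ} (hW : T.WG D)
    {σ : Γ →* (W ≃ₗᵢ[ℝ] W)} {c : V → W}
    (hc : ∀ g x, c (g • x) = c (g • T.o) + σ g (c x))
    (hh : ∑ y ∈ T.nb T.o, c y = 0) (hn : ∃ y ∈ T.nb T.o, c y ≠ 0)
    (hspan : Submodule.span ℝ (Set.range c) = ⊤) :
    ∃ H : Subgroup Γ, H.FiniteIndex ∧ ∃ χ : H →* Multiplicative ℤ, Function.Surjective χ ∧
      ∀ g : H, (g : Γ) • T.o = T.o → χ g = 1 := by
  classical
  have hK := stab_image_finite T hc hspan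
  have hinf := quot_infinite T hc hh hn
  have hπ : Function.Surjective (QuotientGroup.mk' (aff T σ c hc).ker) :=
    QuotientGroup.mk'_surjective _
  have hfg : Group.FG (Γ ⧸ (aff T σ c hc).ker) := fg_of_finite_stab T _ hπ hK
  have hgr : WGr (Γ ⧸ (aff T σ c hc).ker) (D + 1) := wgr_of_finite_stab T _ hπ hK hW
  let σQ : Γ ⧸ (aff T σ c hc).ker →* (W ≃ₗᵢ[ℝ] W) :=
    QuotientGroup.lift _ σ fun g hg => (of_aff_eq_one T hc hg).1
  obtain ⟨cQ, hcQ0⟩ : ∃ cQ, cQ = aff0 T σ c hc := ⟨_, rfl⟩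
  have hcQ : ∀ g : Γ, cQ (g : Γ ⧸ (aff T σ c hc).ker) = c (g • T.o) := by
    intro g
    rw [hcQ0, aff0_mk]
  have hσQ : ∀ g : Γ, σQ (g : Γ ⧸ (aff T σ c hc).ker) = σ g := fun g => rfl
  have hcoc : ∀ g h, cQ (g * h) = cQ g + σQ g (cQ h) := by
    intro g h
    induction g using QuotientGroup.induction_on with
    | H g =>
      induction h using QuotientGroup.induction_on with
      | H h =>
        rw [← QuotientGroup.mk_mul, hcQ, hcQ, hcQ, hσQ, mul_smul]
        exact hc g _
  have hinj : ∀ g, σQ g = 1 → cQ g = 0 → g = 1 := by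
    intro g h1 h2
    induction g using QuotientGroup.induction_on with
    | H g =>
      rw [hσQ] at h1
      rw [hcQ] at h2
      rw [QuotientGroup.eq_one_iff, MonoidHom.mem_ker]
      refine Equiv.ext fun w => ?_
      rw [aff_apply, h1, h2, add_zero]
      rfl
  obtain ⟨K, hKi, φ, hφ⟩ := onto_of_isom σQ (real_virtAbelian' hgr σQ) cQ hcoc hinj
  refine ⟨K.comap (QuotientGroup.mk' _),
    ⟨by rw [Subgroup.index_comap_of_surjective _ hπ]; exact hKi.index_ne_zero⟩,
    φ.comp ((QuotientGroup.mk' _).subgroupComap K), ?_, ?_⟩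
  · exact hφ.comp (MonoidHom.subgroupComap_surjective_of_surjective _ _ hπ)
  · intro g hg
    have h1 : ∀ n : ℕ, (QuotientGroup.mk' (aff T σ c hc).ker (g : Γ)) ^ n ∈
        (QuotientGroup.mk' (aff T σ c hc).ker) '' {g | g • T.o = T.o} := by
      intro n
      refine ⟨(g : Γ) ^ n, ?_, by rw [map_pow]⟩
      show (g : Γ) ^ n • T.o = T.o
      induction n with
      | zero => simp
      | succ n ih => rw [pow_succ, mul_smul, hg, ih]
    obtain ⟨m, n, hmn, e⟩ := hK.exists_lt_map_eq_of_forall_mem h1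
    obtain ⟨a, ha⟩ : ∃ a, a = (QuotientGroup.mk' (aff T σ c hc).ker).subgroupComap K g := ⟨_, rfl⟩
    have h2 : a ^ m = a ^ n := by
      refine Subtype.ext ?_
      rw [Subgroup.coe_pow, Subgroup.coe_pow, ha]
      exact e
    show φ ((QuotientGroup.mk' (aff T σ c hc).ker).subgroupComap K g) = 1
    rw [← ha]
    have h3 : φ a ^ m = φ a ^ n := by rw [← map_pow, ← map_pow, h2]
    have h4 := congrArg Multiplicative.toAdd h3
    rw [toAdd_pow, toAdd_pow, nsmul_eq_mul, nsmul_eq_mul] at h4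
    have h5 : ((n : ℤ) - m) * Multiplicative.toAdd (φ a) = 0 := by linear_combination -h4
    rcases mul_eq_zero.1 h5 with h | h
    · exfalso
      have : (m : ℤ) < n := by exact_mod_cast hmn
      omega
    · exact h

/-- **W4**: a nonzero harmonic equivariant map to a finite-dimensional space gives a homomorphism
of a finite index subgroup onto `ℤ` killing the stabiliser of the base point. -/
theorem exists_hom [FiniteDimensional ℝ W] {D : ℕ} (hW : T.WG D)
    {σ : Γ →* (W ≃ₗᵢ[ℝ] W)} {c : V → W}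
    (hc : ∀ g x, c (g • x) = c (g • T.o) + σ g (c x))
    (hh : ∑ y ∈ T.nb T.o, c y = 0) (hn : ∃ y ∈ T.nb T.o, c y ≠ 0) :
    ∃ H : Subgroup Γ, H.FiniteIndex ∧ ∃ χ : H →* Multiplicative ℤ, Function.Surjective χ ∧
      ∀ g : H, (g : Γ) • T.o = T.o → χ g = 1 := by
  classical
  obtain ⟨W', hW'⟩ : ∃ W' : Submodule ℝ W, W' = Submodule.span ℝ (Set.range c) := ⟨_, rfl⟩
  have hcW : ∀ x, c x ∈ W' := fun x => by
    rw [hW']
    exact Submodule.subset_span ⟨x, rfl⟩
  have hinv : ∀ g, ∀ w ∈ W', σ g w ∈ W' := by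
    intro g
    have : W' ≤ W'.comap (σ g).toLinearEquiv.toLinearMap := by
      conv_lhs => rw [hW']
      rw [Submodule.span_le]
      rintro _ ⟨x, rfl⟩
      show σ g (c x) ∈ W'
      have := hc g x
      have h2 : σ g (c x) = c (g • x) - c (g • T.o) := by rw [this]; abel
      rw [h2]
      exact W'.sub_mem (hcW _) (hcW _)
    exact fun w hw => this hw
  let σ' : Γ →* (W' ≃ₗᵢ[ℝ] W') :=
    { toFun := fun g =>
        { toLinearEquiv := LinearEquiv.ofLinearMap
            ((σ g).toLinearEquiv.toLinearMap.restrict (hinv g))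
            ((σ g⁻¹).toLinearEquiv.toLinearMap.restrict (hinv g⁻¹))
            (LinearMap.ext fun x => Subtype.ext (by
              show (σ g * σ g⁻¹) (x : W) = x
              rw [← map_mul, mul_inv_cancel, map_one]
              rfl))
            (LinearMap.ext fun x => Subtype.ext (by
              show (σ g⁻¹ * σ g) (x : W) = x
              rw [← map_mul, inv_mul_cancel, map_one]
              rfl))
          norm_map' := fun x => (σ g).norm_map (x : W) }
      map_one' := by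
        refine LinearIsometryEquiv.ext fun x => Subtype.ext ?_
        show σ 1 (x : W) = x
        rw [map_one]; rfl
      map_mul' := fun g h => by
        refine LinearIsometryEquiv.ext fun x => Subtype.ext ?_
        show σ (g * h) (x : W) = σ g (σ h (x : W))
        rw [map_mul]; rfl }
  let c' : V → W' := fun x => ⟨c x, hcW x⟩
  have hc' : ∀ g x, c' (g • x) = c' (g • T.o) + σ' g (c' x) := fun g x => Subtype.ext (hc g x)
  have hh' : ∑ y ∈ T.nb T.o, c' y = 0 := by
    refine Subtype.ext ?_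
    rw [Submodule.coe_sum]
    exact hh
  have hn' : ∃ y ∈ T.nb T.o, c' y ≠ 0 := by
    obtain ⟨y, hy, hy0⟩ := hn
    exact ⟨y, hy, fun h => hy0 (congrArg Subtype.val h)⟩
  have hspan : Submodule.span ℝ (Set.range c') = ⊤ := by
    refine Submodule.map_injective_of_injective W'.subtype_injective ?_
    rw [Submodule.map_span, Submodule.map_subtype_top, ← Set.range_comp]
    exact hW'.symm
  exact exists_hom_span T hW hc' hh' hn' hspan

end Main

end Vale.Agent.P151.H964
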